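import Mathlib.Algebra.Lie.Engel
import Mathlib.Algebra.Lie.OfAssociative
import Mathlib.Algebra.Lie.Subalgebra
import Mathlib.LinearAlgebra.Trace
import Mathlib.LinearAlgebra.Eigenspace.Triangularizable
import Mathlib.Analysis.Complex.Polynomial.Basic

set_option autoImplicit false

/-!
# A Lie algebra of endomorphisms with one eigenvalue each has a common eigenvector
-/

namespace Vale.Agent.P280.H984

open Module

attribute [local instance 100] LieRing.ofAssociativeRing

lemma nil_iff {V : Type} [AddCommGroup V] [Module ℂ V] [FiniteDimensional ℂ V] [Nontrivial V]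
    (y : Module.End ℂ V) (c : ℂ) (h : IsNilpotent (y - c • (1 : Module.End ℂ V)))
    (ht : LinearMap.trace ℂ V y = 0) : IsNilpotent y := by
  have h1 : LinearMap.trace ℂ V (y - c • (1 : Module.End ℂ V)) = 0 :=
    (LinearMap.isNilpotent_trace_of_isNilpotent h).eq_zero
  rw [map_sub, ht, map_smul, LinearMap.trace_one, smul_eq_mul, zero_sub, neg_eq_zero,
    mul_eq_zero] at h1
  have h2 : (Module.finrank ℂ V : ℂ) ≠ 0 := Nat.cast_ne_zero.2 Module.finrank_pos.ne'
  have h3 := h1.resolve_right h2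
  rwa [h3, zero_smul, sub_zero] at h

/-- The elements of trace zero of `S + ℂ`. -/
def LL {V : Type} [AddCommGroup V] [Module ℂ V] (S : Submodule ℂ (Module.End ℂ V))
    (hbr : ∀ x ∈ S, ∀ y ∈ S, x * y - y * x ∈ S) : LieSubalgebra ℂ (Module.End ℂ V) where
  carrier := {y | LinearMap.trace ℂ V y = 0 ∧ ∃ c : ℂ, y - c • (1 : Module.End ℂ V) ∈ S}
  zero_mem' := ⟨map_zero _, 0, by simp⟩
  add_mem' := by
    rintro y z ⟨hy, c, hc⟩ ⟨hz, d, hd⟩
    refine ⟨by rw [map_add, hy, hz, add_zero], c + d, ?_⟩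
    have h := S.add_mem hc hd
    rw [show y + z - (c + d) • (1 : Module.End ℂ V) =
      y - c • (1 : Module.End ℂ V) + (z - d • (1 : Module.End ℂ V)) by rw [add_smul]; abel]
    exact h
  smul_mem' := by
    rintro t y ⟨hy, c, hc⟩
    refine ⟨by rw [map_smul, hy, smul_zero], t * c, ?_⟩
    have h := S.smul_mem t hc
    rw [smul_sub, smul_smul] at h
    exact h
  lie_mem' := by
    rintro y z ⟨hy, c, hc⟩ ⟨hz, d, hd⟩
    refine ⟨?_, 0, ?_⟩
    · rw [Ring.lie_def, map_sub, LinearMap.trace_mul_comm, sub_self]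
    · have h := hbr _ hc _ hd
      rw [Ring.lie_def, zero_smul, sub_zero]
      convert h using 1
      rw [sub_mul, sub_mul, mul_sub, mul_sub, mul_sub, mul_sub]
      simp only [smul_mul_assoc, mul_smul_comm, one_mul, mul_one, smul_comm d c]
      abel

theorem eng {V : Type} [AddCommGroup V] [Module ℂ V] [FiniteDimensional ℂ V] [Nontrivial V]
    (S : Submodule ℂ (Module.End ℂ V)) (hbr : ∀ x ∈ S, ∀ y ∈ S, x * y - y * x ∈ S)
    (hs : ∀ x ∈ S, ∃ c : ℂ, IsNilpotent (x - c • 1)) :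
    ∃ v : V, v ≠ 0 ∧ ∀ x ∈ S, ∃ c : ℂ, x v = c • v := by
  have hnil : LieModule.IsNilpotent (LL S hbr) V := by
    rw [LieModule.isNilpotent_iff_forall (R := ℂ)]
    rintro ⟨y, hy, c, hc⟩
    obtain ⟨d, hd⟩ := hs _ hc
    have h1 : IsNilpotent (y - (c + d) • (1 : Module.End ℂ V)) := by
      rw [show y - (c + d) • (1 : Module.End ℂ V) =
        y - c • (1 : Module.End ℂ V) - d • (1 : Module.End ℂ V) by rw [add_smul]; abel]
      exact hd
    exact nil_iff y (c + d) h1 hy
  have hnt : Nontrivial (LieModule.maxTrivSubmodule ℂ (LL S hbr) V) :=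
    LieModule.nontrivial_max_triv_of_isNilpotent ℂ (LL S hbr) V
  obtain ⟨v, hv⟩ := exists_ne (0 : LieModule.maxTrivSubmodule ℂ (LL S hbr) V)
  refine ⟨v, fun h => hv (Subtype.ext h), fun x hx => ?_⟩
  obtain ⟨c, hc⟩ := hs x hx
  have h0 : (Module.finrank ℂ V : ℂ) ≠ 0 := Nat.cast_ne_zero.2 Module.finrank_pos.ne'
  have h1 : LinearMap.trace ℂ V (x - c • (1 : Module.End ℂ V)) = 0 :=
    (LinearMap.isNilpotent_trace_of_isNilpotent hc).eq_zero
  have h2 : x - c • (1 : Module.End ℂ V) ∈ LL S hbr :=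
    ⟨h1, -c, by rw [neg_smul, sub_neg_eq_add, sub_add_cancel]; exact hx⟩
  have h3 := (LieModule.mem_maxTrivSubmodule ℂ (LL S hbr) V (v : V)).1 v.2 ⟨_, h2⟩
  have h4 : (x - c • (1 : Module.End ℂ V)) (v : V) = 0 := h3
  refine ⟨c, ?_⟩
  rw [LinearMap.sub_apply, LinearMap.smul_apply, Module.End.one_apply, sub_eq_zero] at h4
  exact h4

end Vale.Agent.P280.H984
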